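import Vale.Agent.P014Y.C.Ms.St
import Vale.Agent.P014Y.C.Al.Gb0

/-!
# P014 Y, C, block MEAS: representatives and the distribution relation
-/

set_option linter.unusedSectionVars false

open NumberField Module Finset Algebra
open scoped Classical

noncomputable section

namespace Vale.Agent.P014Y.C.Ms

open Al.Gx

namespace Di

variable {K : Type} [Field K] [NumberField K] {ι : ℂ →+* ℂ_[3]} {J : K →+* ℂ}
  {M : Type} [Field M] [NumberField M] [Algebra K M] {n : ℕ} {b : Basis (Fin n) K M}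
  {m a : ℕ} {x y y' z : M} {κ κ' : Type} [Fintype κ] [Fintype κ'] {r : κ → M} {r' : κ' → M}

theorem nm_dvd (c : ℤ) (a : ℕ) : ‖(c : ℂ_[3])‖ ≤ (1 / 3) ^ a ↔ (3 : ℤ) ^ a ∣ c := by
  have e : ‖(c : ℂ_[3])‖ = ‖(c : ℚ_[3])‖ := by
    rw [← PadicComplex.norm_extends' 3, map_intCast, PadicComplex.coe_eq, map_intCast]
  have := Padic.norm_int_le_pow_iff_dvd (p := 3) c a
  rw [e, one_div, inv_pow, ← zpow_natCast, ← zpow_neg]
  exact_mod_cast this

variable (ι J M) in
/-- the lattice `F a` -/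
def FF (a : ℕ) : AddSubgroup M where
  carrier := {y | Fd ι J a y}
  zero_mem' x _ := by simp
  add_mem' {y z} h k x hx := by
    rw [mul_add, map_add, map_add, map_add]
    exact (IsUltrametricDist.norm_add_le_max _ _).trans (max_le (h x hx) (k x hx))
  neg_mem' {y} h x hx := by simpa using h x hx

theorem fd_zero : Fd ι J a (0 : M) := (FF ι J M a).zero_mem

theorem fd_add (h : Fd ι J a y) (k : Fd ι J a z) : Fd ι J a (y + z) := (FF ι J M a).add_mem h k

theorem fd_sub (h : Fd ι J a y) (k : Fd ι J a z) : Fd ι J a (y - z) := (FF ι J M a).sub_mem h k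

theorem fd_symm (h : Fd ι J a (y - z)) : Fd ι J a (z - y) :=
  neg_sub y z ▸ (FF ι J M a).neg_mem h

theorem fd_trans (h : Fd ι J a (x - y)) (k : Fd ι J a (y - z)) : Fd ι J a (x - z) :=
  sub_add_sub_cancel x y z ▸ fd_add h k

theorem fd_refl : Fd ι J a (y - y) := (sub_self y).symm ▸ fd_zero

theorem fd_mono (e : m ≤ a) (h : Fd ι J a y) : Fd ι J m y := fun x hx =>
  (h x hx).trans (pow_le_pow_of_le_one (by norm_num) (by norm_num) e)

theorem fd_mul (h : Vi ι J x) (k : Fd ι J a y) : Fd ι J a (x * y) := fun z hz => by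
  rw [← mul_assoc]
  exact k _ ((Ov ι J M).mul_mem hz h)

theorem vi_two (e : m ≤ a) (h : Vi ι J (3 ^ m * x)) : Vi ι J (3 ^ a * x) := by
  obtain ⟨k, rfl⟩ := Nat.exists_eq_add_of_le e
  rw [pow_add, mul_comm (3 ^ m : M), mul_assoc]
  exact (Ov ι J M).mul_mem (pow_mem (ofNat_mem _ 3) k) h

theorem tr_two (a : ℕ) (x : M) :
    ‖ι (J (trace K M (3 ^ a * x)))‖ = (1 / 3) ^ a * ‖ι (J (trace K M x))‖ := by
  have e : trace K M (3 ^ a * x) = 3 ^ a * trace K M x := by
    rw [← smul_eq_mul ((3 : K) ^ a), ← map_smul, Algebra.smul_def, map_pow, map_ofNat]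
  rw [e, map_mul, map_mul, norm_mul, map_pow, map_pow, map_ofNat, map_ofNat, norm_pow, nm_two]

theorem tr_le (h : Vi ι J (3 ^ a * x)) (k : Fd ι J a y) : ‖ι (J (trace K M (x * y)))‖ ≤ 1 := by
  have := k _ h
  rw [mul_assoc, tr_two] at this
  exact (mul_le_iff_le_one_right (by positivity)).1 this

theorem fd_iff (hb : Vb ι J b) :
    Fd ι J a y ↔ ∀ i, ‖ι (J (b.traceDual.repr y i))‖ ≤ (1 / 3) ^ a := by
  simp only [Basis.traceDual_repr_apply, traceForm_apply, mul_comm y]
  refine ⟨fun h i => h _ ((hb _).2 fun j => ?_), fun h x hx => ?_⟩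
  · rw [b.repr_self, Finsupp.single_apply]
    split_ifs <;> simp
  · rw [← b.sum_repr x, sum_mul, map_sum, map_sum, map_sum]
    refine IsUltrametricDist.norm_sum_le_of_forall_le_of_nonneg (by positivity) fun i _ => ?_
    rw [smul_mul_assoc, map_smul, smul_eq_mul, map_mul, map_mul, norm_mul]
    exact (mul_le_of_le_one_left (norm_nonneg _) ((hb x).1 hx i)).trans (h i)

theorem shift (h : Rs ι J m a y r) (z : M) (k : Fd ι J m (y + z - y')) :
    Rs ι J m a y' fun i => r i + z :=
  ⟨h.le, fun i => (by ring : r i - y + (y + z - y') = r i + z - y') ▸ fd_add (h.mem i) k,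
    fun w hw => by
      simpa only [sub_sub, add_comm z] using
        h.ex (w - z) (by simpa [add_comm z, sub_sub] using fd_sub hw k)⟩

theorem inj (h : Rs ι J m a y r) {i j : κ} (k : Fd ι J a (r i - r j)) : i = j :=
  (h.ex _ (h.mem i)).unique fd_refl k

theorem bij (h : Rs ι J m a y r) (h' : Rs ι J m a y r') :
    ∃ e : κ ≃ κ', ∀ i, Fd ι J a (r i - r' (e i)) := by
  choose f hf using fun i => (h'.ex _ (h.mem i)).exists
  refine ⟨.ofBijective f ⟨fun i j e => inj h (fd_trans (hf i) (e ▸ fd_symm (hf j))), fun j => ?_⟩,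
    hf⟩
  obtain ⟨i, hi⟩ := (h.ex _ (h'.mem j)).exists
  exact ⟨i, (inj h' (fd_trans hi (hf i))).symm⟩

theorem std (hb : Vb ι J b) (den : ∀ x : K, ‖ι (J x)‖ ≤ 1 → ∀ a : ℕ, ∃ c : ℕ,
    ‖ι (J (x - c))‖ ≤ (1 / 3) ^ a) (m k : ℕ) (y : M) : Rs ι J m (m + k) y
      fun j : Fin n → Fin (3 ^ k) => y + b.traceDual.equivFun.symm fun i => 3 ^ m * (j i : ℕ) := by
  have p : (0 : ℝ) < (1 / 3) ^ m := by positivity
  have t : ∀ u : K, ‖ι (J (3 ^ m * u))‖ = (1 / 3) ^ m * ‖ι (J u)‖ := fun u => by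
    rw [map_mul, map_mul, norm_mul, map_pow, map_pow, map_ofNat, map_ofNat, norm_pow, nm_two]
  have c : ∀ (u : Fin n → K) i, b.traceDual.repr (b.traceDual.equivFun.symm u) i = u i :=
    fun u i => congrFun (b.traceDual.equivFun.apply_symm_apply u) i
  refine ⟨le_self_add, fun j => (fd_iff hb).2 fun i => ?_, fun w hw => ?_⟩
  · rw [add_sub_cancel_left, c, t, map_natCast, map_natCast]
    exact mul_le_of_le_one_right p.le (IsUltrametricDist.norm_natCast_le_one _ _)
  · have e : ∀ i, b.traceDual.repr (w - y) i = 3 ^ m * (b.traceDual.repr (w - y) i / 3 ^ m) :=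
      fun i => by field_simp
    have q : ∀ j : Fin n → Fin (3 ^ k), Fd ι J (m + k) (w - (y + b.traceDual.equivFun.symm
        fun i => 3 ^ m * (j i : ℕ))) ↔
        ∀ i, ‖ι (J (b.traceDual.repr (w - y) i / 3 ^ m - (j i : ℕ)))‖ ≤ (1 / 3) ^ k := fun j => by
      refine (fd_iff hb).trans (forall_congr' fun i => ?_)
      rw [← sub_sub, map_sub, Finsupp.sub_apply, c, e, ← mul_sub, t, pow_add, ← e]
      exact mul_le_mul_iff_right₀ p
    simp only [q]
    have s : ∀ i, ∃! j : Fin (3 ^ k),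
        ‖ι (J (b.traceDual.repr (w - y) i / 3 ^ m - (j : ℕ)))‖ ≤ (1 / 3) ^ k := fun i => by
      have := (fd_iff hb).1 hw i
      rw [e, t] at this
      obtain ⟨d, hd⟩ := den _ ((mul_le_iff_le_one_right p).1 this) k
      generalize b.traceDual.repr (w - y) i / 3 ^ m = u at hd
      have v : ∀ j : ℕ, ‖ι (J (u - j))‖ ≤ (1 / 3) ^ k ↔ j ≡ d [MOD 3 ^ k] := fun j => by
        rw [Nat.modEq_iff_dvd, Nat.cast_pow, Nat.cast_ofNat, ← nm_dvd]
        simp only [map_sub, map_natCast, Int.cast_sub, Int.cast_natCast] at hd ⊢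
        refine ⟨fun h => ?_, fun h => ?_⟩
        · rw [← sub_sub_sub_cancel_left _ _ (ι (J u))]
          rw [sub_eq_add_neg]
          exact (IsUltrametricDist.norm_add_le_max _ _).trans (max_le h (by rwa [norm_neg]))
        · rw [← sub_add_sub_cancel _ (d : ℂ_[3])]
          exact (IsUltrametricDist.norm_add_le_max _ _).trans (max_le hd h)
      exact ⟨⟨d % 3 ^ k, Nat.mod_lt _ (by positivity)⟩, (v _).2 (Nat.mod_modEq _ _), fun j hj =>
        Fin.ext ((Nat.mod_eq_of_lt j.2).symm.trans ((v _).1 hj))⟩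
    choose f hf using s
    exact ⟨f, fun i => (hf i).1, fun g hg => funext fun i => (hf i).2 _ (hg i)⟩

end Di

open Di

theorem dis : DIS := by
  intro K _ _ ι J π τ ψ h M _ _ _ n b hb
  refine ⟨fun m a y e => ?_, fun m a y κ _ r hr x => ?_⟩
  · obtain ⟨k, rfl⟩ := Nat.exists_eq_add_of_le e
    exact ⟨_, inferInstance, _, std hb h.den m k y⟩
  have s : ∀ c (u v : M), Vi ι J (3 ^ c * x) → Fd ι J c (u - v) →
      ψ (-trace K M (x * u)) = ψ (-trace K M (x * v)) := fun c u v p q => by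
    have := h.add (-trace K M (x * (u - v))) (-trace K M (x * v))
    rw [(h.ker (-trace K M (x * (u - v)))).2 (by simpa only [map_neg, norm_neg] using tr_le p q),
      one_mul, ← neg_add, ← map_add, ← mul_add, sub_add_cancel] at this
    exact this
  by_cases p : Vi ι J (3 ^ m * x)
  · obtain ⟨k, rfl⟩ := Nat.exists_eq_add_of_le hr.le
    obtain ⟨e, -⟩ := bij hr (std hb h.den m k y)
    simp only [EE, if_pos p, if_pos (vi_two hr.le p), fun i => s m _ _ p (hr.mem i), sum_const,
      card_univ, Fintype.card_congr e, Fintype.card_pi, Fintype.card_fin, prod_const, nsmul_eq_mul]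
    push_cast
    field_simp
    ring
  by_cases q : Vi ι J (3 ^ a * x)
  · obtain ⟨i, hi⟩ := not_forall.1 (mt (hb _).2 p)
    have z : Fd ι J m (3 ^ m * b.traceDual i) := fun w hw => by
      rw [mul_left_comm, tr_two]
      refine mul_le_of_le_one_right (by positivity) ?_
      have := (hb w).1 hw i
      rwa [← b.traceDual_traceDual, Basis.traceDual_repr_apply, traceForm_apply] at this
    have n1 : ψ (-trace K M (x * (3 ^ m * b.traceDual i))) ≠ 1 := fun k => hi (by
      have := (h.ker _).1 k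
      rw [map_neg, map_neg, norm_neg, mul_left_comm, ← mul_assoc] at this
      rwa [← b.traceDual_traceDual, Basis.traceDual_repr_apply, traceForm_apply])
    obtain ⟨e, he⟩ := bij (shift hr _ (by simpa using z)) hr
    have t : ∑ j, ψ (-trace K M (x * r j)) =
        (∑ j, ψ (-trace K M (x * r j))) * ψ (-trace K M (x * (3 ^ m * b.traceDual i))) := by
      rw [sum_mul, ← e.sum_comp]
      exact sum_congr rfl fun j _ => by
        rw [← s a _ _ q (he j), mul_add, map_add, neg_add, h.add]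
    simp only [EE, if_neg p, if_pos q, ← sum_div]
    rw [(mul_right_eq_self₀.1 t.symm).resolve_left n1, zero_div, zero_div]
  · simp [EE, p, q]

end Vale.Agent.P014Y.C.Ms
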