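import Vale.Agent.P014Y.C.Ms.Unf0
import Vale.Agent.P014Y.C.Ms.Dis
import Vale.Agent.P014Y.C.Al.Umf

/-!
# P014 Y, C, block MEAS: the row `BS1`
-/

set_option linter.unusedSectionVars false

theorem Vale.Agent.P014Y.C.Ms.B1.z3 : ∀ a b a' b' : ZMod 3, ¬ (a = 0 ∧ b = 0) →
    ¬ (a' = 0 ∧ b' = 0) →
    ¬ (a' - a = 0 ∧ b' - b = 0) → ¬ (a' + a = 0 ∧ b' + b = 0) → a * b' - a' * b ≠ 0 := by
  intro a b a' b' k1 k2 k3 k4 k5
  have : ∀ u w : ZMod 3 × ZMod 3, u.1 * w.2 = w.1 * u.2 → u = 0 ∨ w = 0 ∨ w - u = 0 ∨ w + u = 0 := by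
    decide
  rcases this (a, b) (a', b') (sub_eq_zero.1 k5) with k | k | k | k
  exacts [k1 (Prod.ext_iff.1 k), k2 (Prod.ext_iff.1 k), k3 (Prod.ext_iff.1 k), k4 (Prod.ext_iff.1 k)]

open NumberField Module
open scoped Classical

noncomputable section

namespace Vale.Agent.P014Y.C.Ms

open In Al.Gx As Vale.Agent.P027H

namespace B1

section cyc

variable {O : Type} [CommRing O] {j : O →+* ℂ} {P P' : Ideal O} {Λ : Submodule ℤ ℂ}

theorem lat_int (h : IsLat Λ) {c : ℂ} (k : ∀ z ∈ Λ, c * z ∈ Λ) : IsIntegral ℤ c := by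
  obtain ⟨L, rfl⟩ := h
  refine isIntegral_of_smul_mem_submodule L.lattice (fun e => L.indep.ne_zero 0 ?_)
    (Submodule.fg_span (by simp)) c k
  exact (Submodule.eq_bot_iff _).1 e _ L.ω₁_mem_lattice

theorem ol (h2 : (3 : O) ∈ P) (h : OLat j Λ) : OLat j (col j P Λ) :=
  ⟨h.1.of_between (fun z hz a _ => h.2 a z hz) three_pos fun z hz => by
    simpa [map_ofNat] using hz 3 h2, fun a z hz b hb => by
    rw [mul_left_comm]; exact h.2 a _ (hz b hb)⟩

theorem c0 (hΛ : OLat j Λ) : col j (P ^ 0) Λ = Λ := by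
  ext z
  exact ⟨fun h => by simpa using h 1 (by simp), fun h => hΛ.le_col _ h⟩

theorem tm {V : AbsoluteValue ℂ ℝ} {Λ : ℕ → Submodule ℤ ℂ} {t : ℕ → ℂ} {q : ℂ} (T : Tw V Λ t q)
    (a : ℕ) : t a ∈ Λ a := by
  cases a with
  | zero => exact T.t0
  | succ a => exact (T.mem a _).2 (Or.inr (Or.inl (mem_of_eq (zero_mem _) (sub_self _))))

theorem cyc (h2 : (3 : O) ∈ P) (hP : P * P' ≤ Ideal.span {3}) {p p' : O} (hp : p ∈ P)
    (hp' : p' ∈ P') (n : ¬ IsIntegral ℤ (j p / 3)) (n' : ¬ IsIntegral ℤ (j p' / 3)) : Cyc j P := by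
  intro Λ h
  obtain ⟨z, hz, nz⟩ : ∃ z ∈ Λ, j p' / 3 * z ∉ Λ := by
    by_contra! c
    exact n' (lat_int h.1 c)
  have m : j p' / 3 * z ∈ col j P Λ := fun a ha => by
    obtain ⟨b, e⟩ := Ideal.mem_span_singleton'.1 (hP (Ideal.mul_mem_mul ha hp'))
    have := congrArg j e
    rw [map_mul, map_mul, map_ofNat] at this
    exact mem_of_eq (h.2 b z hz) (by linear_combination (-z / 3) * this)
  refine ⟨_, m, nz, fun w hw => ?_⟩
  generalize j p' / 3 * z = u at m nz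
  by_contra! c
  have c0 : w ∉ Λ := by simpa using c 0
  have c1 : w - u ∉ Λ := by simpa using c 1
  have c2 : w + u ∉ Λ := by simpa using c (-1)
  have le : Λ ≤ col j P Λ := fun z hz a _ => h.2 a z hz
  obtain ⟨L, rfl⟩ := h.1
  have co (x) (hx : x ∈ col j P L.lattice) : ∃ a b : ℤ, a * L.ω₁ + b * L.ω₂ = 3 * x :=
    PeriodPair.mem_lattice.1 (by simpa [map_ofNat] using hx 3 h2)
  obtain ⟨a, b, e⟩ := co u m
  obtain ⟨a', b', e'⟩ := co w hw
  have ev {x : ℂ} {s t : ℤ} (e : s * L.ω₁ + t * L.ω₂ = 3 * x) (hs : (s : ZMod 3) = 0)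
      (ht : (t : ZMod 3) = 0) : x ∈ L.lattice := by
    obtain ⟨s, rfl⟩ := (ZMod.intCast_zmod_eq_zero_iff_dvd s 3).1 hs
    obtain ⟨t, rfl⟩ := (ZMod.intCast_zmod_eq_zero_iff_dvd t 3).1 ht
    exact PeriodPair.mem_lattice.2 ⟨s, t, by push_cast at e; linear_combination e / 3⟩
  have od : ¬ (3 : ℤ) ∣ a * b' - a' * b := fun k => by
    have k1 := mt (fun k : _ ∧ _ => ev e k.1 k.2) nz
    have k2 := mt (fun k : _ ∧ _ => ev e' k.1 k.2) c0
    have k3 := mt (fun k : _ ∧ _ => ev (s := a' - a) (t := b' - b)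
      (by push_cast; linear_combination e' - e) k.1 k.2) c1
    have k4 := mt (fun k : _ ∧ _ => ev (s := a' + a) (t := b' + b)
      (by push_cast; linear_combination e' + e) k.1 k.2) c2
    have k5 := (ZMod.intCast_zmod_eq_zero_iff_dvd _ 3).2 k
    push_cast at k3 k4 k5
    exact z3 _ _ _ _ k1 k2 k3 k4 k5
  obtain ⟨ε, d, hd⟩ : ∃ ε d : ℤ, ε * (a * b' - a' * b) = 3 * d + 1 := by
    generalize a * b' - a' * b = D at od
    by_cases k : D % 3 = 1
    · exact ⟨1, D / 3, by omega⟩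
    · exact ⟨-1, -D / 3, by omega⟩
  have hd : (ε * (a * b' - a' * b) : ℂ) = 3 * d + 1 := by exact_mod_cast hd
  refine n (lat_int ⟨L, rfl⟩ fun x hx => ?_)
  obtain ⟨s, t, rfl⟩ := PeriodPair.mem_lattice.1 hx
  have := sub_mem (add_mem (zsmul_mem m (ε * (s * b' - t * a')))
    (zsmul_mem hw (ε * (t * a - s * b)))) (le (zsmul_mem hx d)) p hp
  refine mem_of_eq this ?_
  simp only [zsmul_eq_mul]
  push_cast
  linear_combination j p / 3 * (ε * (s * b' - t * a') * e + ε * (t * a - s * b) * e' -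
    (s * L.ω₁ + t * L.ω₂) * hd)

end cyc

variable {K : Type} [Field K] [NumberField K] {ι : ℂ →+* ℂ_[3]} {J : K →+* ℂ} {Ω : ℝ}

variable (J) in
/-- the embedding of the integers -/
abbrev jj : 𝓞 K →+* ℂ := J.comp (algebraMap (𝓞 K) K)

theorem mem_Lk {z : ℂ} : z ∈ Lk J ↔ ∃ a : 𝓞 K, J a = z := Iff.rfl

theorem J_Lk {x : K} : J x ∈ Lk J ↔ IsIntegral ℤ x :=
  ⟨fun ⟨a, e⟩ => J.injective e ▸ a.isIntegral_coe, fun h => ⟨⟨x, h⟩, rfl⟩⟩

theorem lat (B : Base ι J Ω) : OLat (jj J) (Lk J) := by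
  refine ⟨?_, by rintro a _ ⟨b, rfl⟩; exact ⟨a * b, map_mul (jj J) a b⟩⟩
  let b : Basis (Fin 2) ℤ (𝓞 K) := finBasisOfFinrankEq ℤ _ (by rw [RingOfIntegers.rank, B.two])
  have r (x : 𝓞 K) : jj J x = b.repr x 0 * jj J (b 0) + b.repr x 1 * jj J (b 1) := by
    conv_lhs => rw [← b.sum_repr x]
    simp
  refine ⟨⟨jj J (b 0), jj J (b 1), LinearIndependent.pair_iff.2 fun s t h => by_contra fun c => ?_⟩,
    Submodule.ext fun z => PeriodPair.mem_lattice.trans
      ⟨by rintro ⟨u, v, rfl⟩; exact ⟨u * b 0 + v * b 1, by simp⟩,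
        fun ⟨a, e⟩ => ⟨_, _, (r a).symm.trans e⟩⟩⟩
  have h1 := congrArg Complex.re h
  have h2 := congrArg Complex.im h
  have h3 := congrArg Complex.re (r 1)
  have h4 := congrArg Complex.im (r 1)
  generalize jj J (b 0) = x, jj J (b 1) = y at *
  simp at h1 h2 h3 h4
  have d : x.im * y.re - y.im * x.re = 0 := by
    rcases not_and_or.1 c with c | c
    · exact mul_left_cancel₀ c (by linear_combination y.re * h2 - y.im * h1)
    · exact mul_left_cancel₀ c (by linear_combination x.im * h1 - x.re * h2)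
  have hx : x.im = 0 := by linear_combination x.im * h3 - x.re * h4 + (b.repr 1 1 : ℝ) * d
  have hy : y.im = 0 := by linear_combination y.im * h3 - y.re * h4 - (b.repr 1 0 : ℝ) * d
  refine B.im.false (ComplexEmbedding.IsReal.embedding (φ := J) ?_)
  refine IsLocalization.ringHom_ext (nonZeroDivisors (𝓞 K)) (RingHom.ext fun a => ?_)
  exact Complex.conj_eq_iff_im.2 (by rw [show J (algebraMap _ _ a) = _ from r a]; simp [hx, hy])

theorem two (B : Base ι J Ω) : Thr (jj J) (vv ι J) (vv ι (Vq.Jc J)) := by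
  obtain ⟨p, hp, p', hp', e⟩ := Submodule.mem_sup.1 ((Ideal.eq_top_iff_one _).1 (Vq.vv_cop B))
  have k {J : K →+* ℂ} {a b : 𝓞 K} (ha : a ∈ vv ι J) (e : a + b = 1) : ¬ ‖ι (J b / 3)‖ ≤ 1 := by
    rw [map_div₀, norm_div, map_ofNat, nm_two, not_vv.1 fun hb =>
      vv_prime.ne_top ((Ideal.eq_top_iff_one _).2 (e ▸ add_mem ha hb))]
    norm_num
  have n : ¬ IsIntegral ℤ (jj J p / 3) := fun h => k hp' (add_comm p p' ▸ e) (by
    simpa [map_ofNat] using nm_int (ι.comp (starRingEnd ℂ)) h)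
  have n' : ¬ IsIntegral ℤ (jj J p' / 3) := fun h => k hp e (nm_int ι h)
  have m := (Vq.vv_two B).1
  exact ⟨m, Vq.vv_cop B, cyc two_vv m.le hp hp' n n', cyc two_vv (mul_comm _ _ |>.trans m).le hp' hp
    n' n, fun _ => ol two_vv, fun _ => ol two_vv⟩

/-- rationals with denominator a power of three -/
def Dy : AddSubgroup ℚ where
  carrier := {r | ∃ (a : ℕ) (n : ℤ), r * 3 ^ a = n}
  zero_mem' := ⟨0, 0, by simp⟩
  add_mem' := fun ⟨a, n, e⟩ ⟨b, m, e'⟩ =>
    ⟨a + b, n * 3 ^ b + m * 3 ^ a, by push_cast; rw [← e, ← e']; ring⟩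
  neg_mem' := fun ⟨a, n, e⟩ => ⟨a, -n, by push_cast; rw [← e]; ring⟩

theorem dy_int {r : ℚ} (h : r ∈ Dy) : ‖ι (J r)‖ ≤ 1 ↔ ∃ m : ℤ, r = m := by
  refine ⟨fun k => ?_, by rintro ⟨m, rfl⟩; simpa using IsUltrametricDist.norm_intCast_le_one _ m⟩
  obtain ⟨a, n, e⟩ := h
  obtain ⟨m, rfl⟩ := (Di.nm_dvd n a).1 (by
    rw [← Rat.cast_intCast, ← e]
    push_cast
    rw [norm_mul, norm_pow, nm_two]
    exact mul_le_of_le_one_left (by positivity) (by simpa using k))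
  exact ⟨m, mul_right_cancel₀ (by positivity) (e.trans (by push_cast; ring))⟩

theorem ex_psi (B : Base ι J Ω) : ∃ ψ : K → ℂ, (∀ x y, ψ (x + y) = ψ x * ψ y) ∧
    ∀ x, ψ x = 1 ↔ ‖ι (J x)‖ ≤ 1 := by
  have h (x : K) : ∃ r ∈ Dy, ‖ι (J (x - r))‖ ≤ 1 := by
    obtain ⟨a, ha⟩ := pow_unbounded_of_one_lt ‖ι (J x)‖ (show (1 : ℝ) < 3 by norm_num)
    obtain ⟨n, hn⟩ := Al.Uf.apz B a (z := 3 ^ a * x) (by
      rw [nm_mul, nm_tp, one_div, inv_pow, inv_mul_le_one₀ (by positivity)]; exact ha.le)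
    refine ⟨n / 3 ^ a, ⟨a, n, by field_simp⟩, le_of_eq_of_le (congrArg (‖ι <| J ·‖) ?_) hn⟩
    push_cast; field_simp
  choose r d h using h
  refine ⟨fun x => Complex.exp (r x * (2 * Real.pi * Complex.I)), fun x y => ?_, fun x => ?_⟩
  · obtain ⟨m, e⟩ := (dy_int (ι := ι) (J := J) (sub_mem (d (x + y)) (add_mem (d x) (d y)))).1 (by
      rw [show ((r (x + y) - (r x + r y) : ℚ) : K) = x - r x + (y - r y) + -(x + y - r (x + y)) by
        push_cast; ring]
      exact nm_add (nm_add (h x) (h y)) (nm_neg.trans_le (h _)))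
    simp only [← Complex.exp_add]
    refine Complex.exp_eq_exp_iff_exists_int.2 ⟨m, ?_⟩
    rw [sub_eq_iff_eq_add.1 e]; push_cast; ring
  · rw [Complex.exp_eq_one_iff]
    simp only [mul_left_inj' Complex.two_pi_I_ne_zero]
    rw [show (∃ n : ℤ, (r x : ℂ) = n) ↔ ∃ n : ℤ, r x = n by norm_cast, ← dy_int (ι := ι) (J := J) (d x)]
    exact ⟨fun k => by simpa using nm_add (h x) k, fun k => by
      simpa using nm_add k (nm_neg.trans_le (h x))⟩

end B1

open B1 in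
/-- **row BS1** -/
theorem bs1' (ord : ORD) (int1 : INT1) : BS1 := fun K _ _ ι J Ω B su => by
  let c : nonZeroDivisors (Ideal (𝓞 K)) := ⟨vv ι J, mem_nonZeroDivisors_of_ne_zero Va.vv_ne⟩
  have h0 : 0 < Fintype.card (ClassGroup (𝓞 K)) := Fintype.card_pos
  obtain ⟨π, e⟩ := (ClassGroup.mk0_eq_one_iff (c ^ Fintype.card (ClassGroup (𝓞 K))).2).1
    (by rw [Subtype.coe_eta, map_pow, pow_card_eq_one])
  replace e : vv ι J ^ Fintype.card (ClassGroup (𝓞 K)) = Ideal.span {π} := e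
  have p1 : π ∈ vv ι J := Ideal.pow_le_self h0.ne' (e.ge (Ideal.mem_span_singleton_self π))
  have p0 : π ≠ 0 := fun k => pow_ne_zero _ Va.vv_ne (e.trans (Ideal.span_singleton_eq_bot.2 k))
  obtain ⟨t, q, T, -, tor⟩ := ord ι _ (jj J) _ _ _ _ π (two B) (lat B) h0 e (by simpa using p0) p1
  have c0 := B1.c0 (P := vv ι J) (lat B)
  have ow (a) (y : K) (hy : J y ∈ col (jj J) (vv ι J ^ a) (Lk J)) : Ow π y :=
    ⟨a, J_Lk.1 (by simpa using hy (π ^ a) (Ideal.pow_mem_pow p1 a))⟩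
  have ex (a) : ∃ x : K, J x = t a := by
    obtain ⟨y, hy⟩ := tm T a (3 ^ a) (Ideal.pow_mem_pow two_vv a)
    refine ⟨y / 3 ^ a, ?_⟩
    rw [map_div₀, show J y = _ from hy]
    simp [map_ofNat]
  choose σ hσ using ex
  let τ : ℕ → K := fun a => Nat.casesOn a 1 fun a => σ (a + 1)
  have one : (1 : ℂ) ∈ Lk J := ⟨1, map_one (jj J)⟩
  have T' : Tw (av ι) (fun a => col (jj J) (vv ι J ^ a) (Lk J)) (fun a => J (τ a)) q :=
    { T with
      mem := fun a z => by simpa only [τ, hσ] using T.mem a z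
      nm := fun a => by simpa only [τ, hσ] using T.nm a
      can := fun a => by simpa only [τ, hσ] using T.can a
      t0 := c0.ge ((map_one J).symm ▸ one : J 1 ∈ Lk J)
      dbl := fun a => by
        cases a with
        | zero => exact mem_of_eq (add_mem (T.dbl 0) (sub_mem T.t0 (c0.ge one))) (by simp [τ, hσ])
        | succ a => simpa only [τ, hσ] using T.dbl (a + 1) }
  have db (a) : IsIntegral ℤ (3 * τ (a + 1) - τ a) :=
    J_Lk.1 (by simpa only [c0, map_sub, map_mul, map_ofNat] using T'.dbl a)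
  have tv (a) : ‖ι (J (τ a))‖ = 3 ^ a := by
    have s (a) (h : ‖ι (J (3 * τ (a + 1)))‖ = 3 ^ a) : ‖ι (J (τ (a + 1)))‖ = 3 ^ (a + 1) := by
      rw [nm_mul, map_ofNat, map_ofNat, nm_two] at h
      rw [pow_succ]; linarith
    induction a using Nat.twoStepInduction with
    | zero => simp [τ]
    | one =>
      let y : 𝓞 K := ⟨3 * τ 1, show IsIntegral ℤ _ by simpa [τ] using (db 0).add isIntegral_one⟩
      refine s 0 ((not_vv (s := y)).1 fun hy => T'.nm 0 ?_)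
      obtain ⟨p, hp, p', hp', e⟩ := Submodule.mem_sup.1 ((Ideal.eq_top_iff_one _).1 (Vq.vv_cop B))
      obtain ⟨b, hb⟩ := Ideal.mem_span_singleton'.1
        ((Vq.vv_two B).1.le (Ideal.mul_mem_mul hy hp'))
      have h1 := congrArg (jj J) hb
      have h2 := congrArg (jj J) e
      have h3 : jj J y = 3 * J (τ 1) := (map_mul J 3 _).trans (by rw [map_ofNat])
      simp only [map_mul, map_add, map_one, map_ofNat, h3] at h1 h2
      exact c0.ge (mem_of_eq (add_mem (tm T' 1 p (by simpa using hp)) ⟨b, rfl⟩) (by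
        show _ = _ + jj J b
        linear_combination -h1 / 3 - J (τ 1) * h2))
    | more a _ ih =>
      refine s _ ?_
      have := nm_i (ι := ι) (J := J) (db (a + 1))
      rw [← sub_add_cancel (3 * _) (τ (a + 1)), map_add, map_add,
        IsUltrametricDist.norm_add_eq_max_of_norm_ne_norm, max_eq_right, ih] <;> rw [ih]
      · exact this.trans (one_le_pow₀ (by norm_num : (1 : ℝ) ≤ 3))
      · exact (this.trans_lt (one_lt_pow₀ (by norm_num) a.succ_ne_zero)).ne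
  obtain ⟨ψ, add, ker⟩ := ex_psi B
  have A : Ar ι J π τ ψ :=
    { p0 := p0, p1 := p1, add := add, ker := ker, tv := tv
      tw := fun a => ow a _ (tm T' a)
      cop := fun s hs => by
        obtain ⟨p, hp, r, k⟩ := Vq.ex_one hs (Fintype.card (ClassGroup (𝓞 K)))
        obtain ⟨u, rfl⟩ := Ideal.mem_span_singleton'.1 (e.le hp)
        exact ⟨u, r, k⟩
      loc := fun x hx => Va.ov_iff.2 hx
      den := fun x hx a => by
        obtain ⟨n, hn⟩ := Al.Uf.apz B a hx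
        obtain ⟨m, hm⟩ := Int.eq_ofNat_of_zero_le (Int.emod_nonneg n (by positivity : (3 : ℤ) ^ a ≠ 0))
        have k : (n : K) = m + 3 ^ a * (n / 3 ^ a : ℤ) := by
          exact_mod_cast hm ▸ (Int.emod_add_mul_ediv n (3 ^ a)).symm
        refine ⟨m, ?_⟩
        rw [show x - m = 3 ^ a * ((x - n) / 3 ^ a + (n / 3 ^ a : ℤ)) by
          field_simp; linear_combination k, nm_mul, nm_tp]
        exact mul_le_of_le_one_right (by positivity) (nm_add hn (by
          simpa using IsUltrametricDist.norm_intCast_le_one _ _)) }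
  obtain ⟨W, w0, w1, ms⟩ := int1 ι _ _ q (fun a => ψ (τ a)) T' A.prim fun a => by
    rw [← A.nat, ← A.per (x := τ a) (nm_i (db a))]; simp
  obtain ⟨ω, rfl⟩ := su W
  simp only [c0] at w1 ms
  refine ⟨π, τ, ψ, ω, q, A, (pow_left_inj₀ (norm_nonneg _) B.pos.le (by norm_num)).1
    (w1.trans B.per.symm), fun k => w0 (by simp [k]), (lat B).1, fun y hy => ?_, ms⟩
  obtain ⟨n, s, n0, hn⟩ := ((IsFractionRing.isAlgebraic_iff ℤ ℚ K).2
    (Algebra.IsAlgebraic.isAlgebraic y)).exists_nsmul_eq (𝓞 K)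
  obtain ⟨a, ha⟩ := tor (J y) n (by omega) (mem_Lk.2 ⟨s, by simpa using congrArg J hn.symm⟩) hy
  exact ow a y ha

end Vale.Agent.P014Y.C.Ms
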