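import Vale.Agent.P014Y.C.Ms.St
import Vale.Agent.P014Y.C.As.Emb
import Vale.Agent.P014Y.C.Al.Dis0

/-!
# P014 Y, C, block MEAS: embeddings, discriminant and the dual lattice
-/

open NumberField Module Finset Algebra
open scoped Classical

noncomputable section

namespace Vale.Agent.P014Y.C.Ms

open Al.Gx Al.Ds

namespace Eb

variable {K : Type} [Field K] [NumberField K] {ι : ℂ →+* ℂ_[3]} {J : K →+* ℂ}
  {M : Type} [Field M] [NumberField M] [Algebra K M] {n : ℕ} {b : Basis (Fin n) K M}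

omit [NumberField K] [NumberField M] in
theorem dt_eq {σ : Fin n → M →+* ℂ} (h : Em J σ) (b : Basis (Fin n) K M) (T : Fin n → M) :
    J (dt b T) = kp b σ * (Matrix.of fun j i => σ i (T j)).det := by
  rw [dt, kp, RingHom.map_det, mul_comm, ← Matrix.det_transpose (Matrix.of fun k i => σ i (b k)),
    ← Matrix.det_mul]
  congr 1
  ext j i
  simp [Matrix.mul_apply, ← h.tr]

theorem dt_det (b : Basis (Fin n) K M) (T : Fin n → M) :
    haveI := As.fd K M
    dt b T = b.traceDual.det T := by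
  rw [Basis.det_apply, dt, ← Matrix.det_transpose]
  congr 1
  ext i j
  simp [Basis.toMatrix_apply, Basis.traceDual_repr_apply]

omit [NumberField K] in
theorem fd_pow (a : ℕ) (y : M) : Fd ι J a y ↔ Fd ι J 0 (y / 3 ^ a) := by
  refine forall₂_congr fun x _ => ?_
  have e : trace K M (x * y) = 3 ^ a * trace K M (x * (y / 3 ^ a)) := by
    rw [← smul_eq_mul ((3 : K) ^ a), ← map_smul, Algebra.smul_def, map_pow, map_ofNat,
      mul_left_comm, mul_div_cancel₀ _ (pow_ne_zero a three_ne_zero)]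
  rw [e, map_mul, map_mul, norm_mul, map_pow, map_pow, map_ofNat, map_ofNat, norm_pow, pow_zero,
    nm_two]
  exact mul_le_iff_le_one_right (by positivity)

theorem gn_iff (hb : Vb ι J b) {t : M} : Gn ι J t ↔ Dg ι J K t⁻¹ := by
  refine and_congr inv_eq_zero.not.symm (forall_congr' fun y => ?_)
  rw [div_eq_inv_mul]
  refine iff_congr (forall₂_congr fun x _ => ?_) Iff.rfl
  rw [ov_K hb, pow_zero, mul_comm x]

end Eb

open Eb

/-- **EMB** -/
theorem emb : EMB := by
  intro K _ _ ι J M _ _ _ n b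
  have _ := As.fd K M
  have rk : finrank K M = n := by simpa using finrank_eq_card_basis b
  refine ⟨?_, fun σ h => ?_⟩
  · obtain ⟨σ, h⟩ := As.ex_sg J rk
    exact ⟨σ, ⟨h.ext, fun x => (h.both x).2, fun x => (h.both x).1⟩, h.inj⟩
  have e : J (discr K b) = kp b σ * kp b σ := dt_eq h b b
  refine ⟨fun k => discr_not_zero_of_basis K b (by simpa [k] using e), ?_, dt_eq h b, fun T => ?_,
    fun x ⟨s, a, c⟩ i => ?_⟩
  · rw [dv, e, map_mul, norm_mul, Real.sqrt_mul_self (norm_nonneg _)]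
  · rw [dt_det, ← isUnit_iff_ne_zero, ← Basis.is_basis_iff_det]
    exact ⟨fun k => k.1, fun k => ⟨k, k.span_eq_top_of_card_eq_finrank' (by simp [rk])⟩⟩
  · simpa [h.ext, a] using nm_int (ι.comp (σ i)) c

/-- **DIF** -/
theorem dif : DIF := by
  intro K _ _ ι J π τ ψ _ M _ _ _ n b hb
  have _ := As.fd K M
  refine ⟨?_, fun t h => ⟨?_, fun a y => ?_⟩⟩
  · obtain ⟨g, -, h⟩ := dg_ex (ι := ι) (J := J) (M := K) (N := M)
    exact ⟨(g : M)⁻¹, (gn_iff hb).2 (by rwa [inv_inv])⟩
  · have n0 : norm K t ≠ 0 := norm_ne_zero_iff.2 h.1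
    rw [dv_eq hb ((gn_iff hb).1 h), Algebra.norm_inv, map_inv₀, map_inv₀, _root_.norm_inv]
    exact mul_inv_cancel₀ (by simpa using n0)
  · rw [fd_pow, h.2, div_right_comm]

end Vale.Agent.P014Y.C.Ms
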