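import Vale.Agent.P014Y.C.Ms.St

/-!
# P014 Y, C, block MEAS, rows RSM and MSR: Riemann sums and congruences
-/

set_option linter.all false

open NumberField Module Finset Algebra Filter
open scoped Classical Topology

noncomputable section

namespace Vale.Agent.P014Y.C.Ms

open In P004C.An

namespace Rm

variable {K : Type} [Field K] [NumberField K] {ι : ℂ →+* ℂ_[3]} {J : K →+* ℂ} {M : Type} [Field M]
  [NumberField M] [Algebra K M] {n : ℕ}

theorem fd_of {m : ℕ} {y y' : M} (h : Fd ι J 0 y) (k : Fd ι J m (y' - y)) : Fd ι J 0 y' :=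
  fun x hx => by
    rw [← sub_add_cancel y' y, mul_add, map_add, map_add, map_add]
    exact (IsUltrametricDist.norm_add_le_max _ _).trans (max_le ((k x hx).trans
      (pow_le_pow_of_le_one (by norm_num) (by norm_num) m.zero_le)) (h x hx))

theorem ms_dis {ψ : K → ℂ} {b : Basis (Fin n) K M} {T : Fin n → M} {ρ : Fin n → K → ℂ} {φ : M → ℂ}
    {m a : ℕ} {y : M} {κ : Type} [Fintype κ] {r : κ → M}
    (h : ∀ x, EE ι J ψ m y x / 3 ^ (m * n) = ∑ i, EE ι J ψ a (r i) x / 3 ^ (a * n))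
    (k : ∀ i, ∃ s, Reg (ms ι J ψ b T ρ φ a (r i)) s) :
    Reg (ms ι J ψ b T ρ φ m y) (∑ i, rg (ms ι J ψ b T ρ φ a (r i))) := by
  refine (Reg.sum univ fun i _ => (k i).elim fun s hs => hs.rg_eq ▸ hs).congr (fun x => ?_) rfl
  calc _ = φ x * (J (dt b T) * ∏ j, ρ j (trace K M (T j * x))) * (EE ι J ψ m y x / 3 ^ (m * n)) := by
        rw [ms]; ring
    _ = _ := by
        rw [h, mul_sum]
        exact sum_congr rfl fun i _ => by rw [ms]; ring

/-- the norm form in the coordinates of the vertices -/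
def Pn (k : ℕ) (l : Fin n → Fin n → ℂ) : MvPolynomial (Fin n) ℂ :=
  ∏ i, (∑ j, MvPolynomial.C (l j i) * MvPolynomial.X j) ^ (k - 1)

theorem Pn_deg {k : ℕ} (hk : 0 < k) {l : Fin n → Fin n → ℂ} {e : Fin n →₀ ℕ}
    (h : e ∈ (Pn k l).support) : ∑ j, (e j + 1) = n * k := by
  have H : (Pn k l).IsHomogeneous (∑ _i : Fin n, 1 * (k - 1)) :=
    MvPolynomial.IsHomogeneous.prod _ _ _ fun i _ => (MvPolynomial.IsHomogeneous.sum _ _ _
      fun j _ => MvPolynomial.isHomogeneous_C_mul_X _ _).pow _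
  have := not_not.1 (mt H.coeff_eq_zero (MvPolynomial.mem_support_iff.1 h))
  obtain ⟨k, rfl⟩ := Nat.exists_eq_add_of_lt hk
  rw [sum_add_distrib, ← Finsupp.degree_eq_sum, this]
  simp [mul_add]

theorem Pn_nm {σ : Fin n → M →+* ℂ} (hσ : Em J σ) (k : ℕ) (T : Fin n → M) (u : Fin n → K) :
    J (Algebra.norm K (∑ j, u j • T j)) ^ (k - 1) =
      ∑ e ∈ (Pn k fun j i => σ i (T j)).support,
        (Pn k fun j i => σ i (T j)).coeff e * ∏ j, J (u j) ^ e j := by
  rw [← MvPolynomial.eval_eq', Pn, ← hσ.nm, ← prod_pow]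
  simp [Algebra.smul_def, hσ.ext, mul_comm]

end Rm

open Rm

theorem rsm (emb : EMB) (cke : CKE) (dis : DIS) (prm : PRM) : RSM := by
  intro K _ _ ι J Ω π τ ψ ω h M _ _ _ n b hb σ hσ c l hc T φ hφ hA hG k hk
  obtain ⟨B, hB⟩ := hφ.bdd
  obtain ⟨k0, -, e1, e2, -⟩ := (emb K ι J M n b).2 σ hσ
  choose C hC using (prm K ι J Ω π τ ψ ω h M n b hb c l hc T φ B hφ hA hG hB).2
  obtain ⟨P, hP⟩ : ∃ P, P = Pn k fun j i => σ i (T j) := ⟨_, rfl⟩
  have f0 : ((k - 1).factorial : ℂ) ≠ 0 := Nat.cast_ne_zero.2 (Nat.factorial_ne_zero _)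
  have o0 := h.o0
  refine ⟨∑ e ∈ P.support, ‖ι (P.coeff e)‖ * |C e|, fun m y hy => ⟨_, ((Reg.sum P.support
    fun e _ => ((hC e m y hy).1.elim fun s hs => hs.rg_eq ▸ hs : Reg _ (rg _)).smul
      (P.coeff e)).smul (ω ^ (n * k) * 3 ^ (m * n) / (kp b σ * (k - 1).factorial ^ n))).congr
      (fun x => ?_) rfl, fun a κ _ r hr => ?_⟩⟩
  · rw [div_mul_eq_mul_div, eq_div_iff (mul_ne_zero k0 (pow_ne_zero n f0))]
    calc _ = φ x * EE ι J ψ m y x * kp b σ * ((k - 1).factorial ^ n *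
          ck k (fun j i => σ i (T j)) fun i => σ i x) := by ring
      _ = _ := by
        rw [cke n k _ _ P hP, mul_sum, mul_sum, mul_sum]
        refine sum_congr rfl fun e he => ?_
        simp only [ms, pw, e1, lf, ← map_mul, hσ.tr, mul_pow, ← div_div_eq_mul_div,
          div_mul_eq_div_div_swap, prod_div_distrib (g := fun j => ω ^ (e j + 1)),
          prod_pow_eq_pow_sum, Pn_deg hk (hP ▸ he)]
        field_simp
        simp only [mul_comm x]
  · have fr := fun i => fd_of hy (hr.mem i)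
    have q : ∀ e : Fin n → ℕ, rg (ms ι J ψ b T (fun j => pw J ω (e j)) φ m y) = _ := fun e =>
      (ms_dis ((dis K ι J π τ ψ h.toAr M n b hb).2 m a y κ r hr)
        fun i => (hC e a _ (fr i)).1).rg_eq
    have q' : ∀ z : ℂ, ι (kp b σ) * ((k - 1).factorial : ℂ_[3]) ^ n * ι (ω ^ (n * k) * 3 ^ (m * n) /
        (kp b σ * (k - 1).factorial ^ n) * z) / (ι ω ^ (n * k) * 3 ^ (m * n)) = ι z := fun z => by
      rw [← map_natCast ι, ← map_ofNat ι 3]
      simp only [← map_pow, ← map_mul, ← map_div₀]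
      congr 1
      field_simp
    rw [q']
    simp only [q, map_sum, map_mul, mul_sum]
    rw [sum_comm, ← sum_sub_distrib]
    refine IsUltrametricDist.norm_sum_le_of_forall_le_of_nonneg (by positivity) fun i _ => ?_
    by_cases hT : LinearIndependent K T
    · obtain ⟨u, hu⟩ := (Submodule.mem_span_range_iff_exists_fun K).1
        ((hT.span_eq_top_of_card_eq_finrank' (finrank_eq_card_basis b).symm).ge
          (Submodule.mem_top (x := r i)))
      rw [← map_pow, ← congrArg (Algebra.norm K) hu, Pn_nm hσ, ← hP, map_sum, sum_mul,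
        ← sum_sub_distrib, sum_mul]
      refine norm_sum_le_of_le _ fun e _ => ?_
      rw [map_mul, mul_assoc, ← mul_sub, norm_mul, mul_assoc, map_prod]
      simp only [map_pow]
      exact mul_le_mul_of_nonneg_left (((hC e a _ (fr i)).2 u hu.symm).trans
        (mul_le_mul_of_nonneg_right (le_abs_self _) (by positivity))) (norm_nonneg _)
    · have z : ∀ ρ, rg (ms ι J ψ b T ρ φ a (r i)) = 0 := fun ρ =>
        (Reg.zero.congr (fun x => by simp [ms, not_not.1 (mt (e2 T).1 hT)]) rfl).rg_eq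
      simp only [z, map_zero, mul_zero, sum_const_zero, sub_zero, _root_.norm_zero]
      positivity

theorem msr (emb : EMB) (dis : DIS) (prm : PRM) (rsm : RSM) : MSR := by
  intro K _ _ ι J Ω π τ ψ ω h M _ _ _ n b hb σ hσ c l hc T φ B hφ hA hG hB m y hy
  obtain ⟨k0, k1, -⟩ := (emb K ι J M n b).2 σ hσ
  choose! C hC using rsm K ι J Ω π τ ψ ω h M n b hb σ hσ c l hc T φ hφ hA hG
  choose! s h1 h2 using fun k hk => hC k hk m y hy
  refine ⟨s, h1, fun S α δ hS hδ => ?_⟩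
  have d0 : 0 ≤ δ := (norm_nonneg _).trans (hδ y fun x _ => by simp)
  have B0 : 0 ≤ B := (norm_nonneg _).trans (hB 0)
  rw [← k1, le_div_iff₀ (norm_pos_iff.2 ((map_ne_zero ι).2 k0)), ← norm_mul]
  have t : Tendsto (fun a : ℕ => δ * B + (∑ k ∈ S, ‖α k‖ * C k) * (1 / 3) ^ a) atTop
      (𝓝 (δ * B + (∑ k ∈ S, ‖α k‖ * C k) * 0)) := tendsto_const_nhds.add
    ((tendsto_pow_atTop_nhds_zero_of_lt_one (by norm_num) (by norm_num)).const_mul _)
  rw [mul_zero, add_zero] at t
  refine ge_of_tendsto t ((eventually_ge_atTop m).mono fun a ha => ?_)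
  obtain ⟨κ, _, r, hr⟩ := (dis K ι J π τ ψ h.toAr M n b hb).1 m a y ha
  refine (norm_le_norm_add_norm_sub' _ (∑ k ∈ S, α k * ∑ i, ι (J (Algebra.norm K (r i))) ^ (k - 1) *
    ι (rg (ms ι J ψ b T (fun _ => pw J ω 0) φ a (r i))))).trans (add_le_add ?_ ?_)
  · simp only [mul_sum, ← mul_assoc]
    rw [sum_comm]
    refine IsUltrametricDist.norm_sum_le_of_forall_le_of_nonneg (by positivity) fun i _ => ?_
    rw [← sum_mul, norm_mul]
    exact mul_le_mul (hδ _ (hr.mem i)) ((prm K ι J Ω π τ ψ ω h M n b hb c l hc T φ B hφ hA hG hB).1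
      a _ (fd_of hy (hr.mem i))) (norm_nonneg _) d0
  · rw [sum_mul, ← sum_sub_distrib, sum_mul]
    refine norm_sum_le_of_le _ fun k hk => ?_
    rw [mul_assoc, ← mul_sub, norm_mul, mul_assoc, mul_comm _ (ι (kp b σ)), ← mul_div_assoc,
      ← mul_assoc (ι _)]
    exact mul_le_mul_of_nonneg_left (h2 k (hS k hk) a κ r hr) (norm_nonneg _)

end Vale.Agent.P014Y.C.Ms
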