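import Vale.Agent.P014Y.C.Ms.St

/-!
# P014 Y, C, block MEAS: bounds and moments of the masses
-/

open NumberField Module Finset Algebra
open scoped Classical

set_option linter.unusedSectionVars false

noncomputable section

namespace Vale.Agent.P014Y.C.Ms

open In P004C.An

namespace Pm

theorem nsum {I : Type} [Fintype I] {f : I → ℂ_[3]} {B : ℝ} (h0 : 0 ≤ B) (h : ∀ p, ‖f p‖ ≤ B) :
    ‖∑ p, f p‖ ≤ B := IsUltrametricDist.norm_sum_le_of_forall_le_of_nonneg h0 fun p _ => h p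

theorem nadd {x y : ℂ_[3]} {B : ℝ} (h : ‖x‖ ≤ B) (k : ‖y‖ ≤ B) : ‖x + y‖ ≤ B :=
  (IsUltrametricDist.norm_add_le_max _ _).trans (max_le h k)

theorem nmul {x y : ℂ_[3]} {B : ℝ} (h : ‖x‖ ≤ 1) (k : ‖y‖ ≤ B) : ‖x * y‖ ≤ B := by
  rw [norm_mul]
  exact (mul_le_of_le_one_left (norm_nonneg _) h).trans k

theorem nprod {n : ℕ} {f : Fin n → ℂ_[3]} (h : ∀ i, ‖f i‖ ≤ 1) (S : Finset (Fin n)) :
    ‖∏ i ∈ S, f i‖ ≤ 1 := by
  rw [norm_prod]
  exact prod_le_one (fun _ _ => norm_nonneg _) fun i _ => h i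

theorem npow {x : ℂ_[3]} (h : ‖x‖ ≤ 1) (k : ℕ) : ‖x ^ k‖ ≤ 1 := by
  rw [norm_pow]
  exact pow_le_one₀ (norm_nonneg _) h

theorem ndif {n : ℕ} {f g : Fin n → ℂ_[3]} {δ : ℝ} (h0 : 0 ≤ δ) (hf : ∀ i, ‖f i‖ ≤ 1)
    (hg : ∀ i, ‖g i‖ ≤ 1) (h : ∀ i, ‖f i - g i‖ ≤ δ) (S : Finset (Fin n)) :
    ‖∏ i ∈ S, f i - ∏ i ∈ S, g i‖ ≤ δ := by
  induction S using Finset.induction_on with
  | empty => simpa using h0
  | insert i S hi ih =>
    rw [prod_insert hi, prod_insert hi]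
    convert nadd (nmul (hf i) ih) (nmul (nprod hg S) (h i)) using 2
    ring

/-- moments in one variable -/
theorem nmom {F : ℕ → ℂ_[3]} {β γ : ℂ_[3]} {δ : ℝ} (h0 : 0 ≤ δ) (hF : ∀ e, ‖F e‖ ≤ 1)
    (hγ : ‖γ‖ ≤ 1) (h : ∀ e, ‖F (e + 1) - β * F e‖ ≤ δ) (k : ‖β - γ‖ ≤ δ) (e : ℕ) :
    ‖F e - γ ^ e * F 0‖ ≤ δ := by
  induction e with
  | zero => simpa using h0
  | succ e ih =>
    convert nadd (nadd (h e) (nmul (hF e) k)) (nmul hγ ih) using 2
    ring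

variable {K : Type} [Field K] [NumberField K] {ι : ℂ →+* ℂ_[3]} {J : K →+* ℂ} {π : 𝓞 K}

theorem ow_add {x y : K} (h : Ow π x) (k : Ow π y) : Ow π (x + y) := by
  obtain ⟨a, h⟩ := h
  obtain ⟨b, k⟩ := k
  have p : IsIntegral ℤ (algebraMap K K π) := π.isIntegral_coe
  have e : algebraMap K K π ^ (a + b) * (x + y) = algebraMap K K π ^ a * x * algebraMap K K π ^ b +
      algebraMap K K π ^ b * y * algebraMap K K π ^ a := by ring
  exact ⟨a + b, e ▸ (h.mul (p.pow b)).add (k.mul (p.pow a))⟩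

theorem ow_int {x : K} (m : ℤ) (h : Ow π x) : Ow π (m * x) := by
  obtain ⟨a, h⟩ := h
  exact ⟨a, mul_left_comm (m : K) _ x ▸ (isIntegral_algebraMap (x := m)).mul h⟩

theorem ow_one : Ow π (1 : K) := ⟨0, by simpa using isIntegral_one⟩

theorem ow_sh {g s j : ℕ} (hg : g ≠ 0) {z t : K} (ht : Ow π t) (h : ¬ Ow π (g * (z + s / g))) :
    ¬ Ow π (g * (z + j * t)) := fun k => h (by
  have : (g : K) ≠ 0 := Nat.cast_ne_zero.2 hg
  convert ow_add (ow_add k (ow_int (-(g * j)) ht)) (ow_int s ow_one) using 1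
  push_cast
  field_simp
  ring)

theorem rh_mul (ψ : K → ℂ) (ω : ℂ) {w : K} (hw : w ≠ 0) (z : K) :
    rh J ψ ω 1 (w * z) = (J w)⁻¹ * rh J ψ ω w z := by
  have : J w ≠ 0 := (map_ne_zero J).2 hw
  by_cases h : z = 0
  · simp [rh, h, this]
  · rw [rh, rh, if_neg h, if_neg (mul_ne_zero hw h), one_mul, map_mul, mul_left_comm,
      inv_mul_eq_div, div_div, mul_comm (J w)]

theorem pw_mul (ω : ℂ) (e : ℕ) (w z : K) :
    pw J ω e (w * z) = (J w)⁻¹ * ((J w)⁻¹ ^ e * pw J ω e z) := by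
  rw [pw, pw, map_mul, mul_left_comm ω, mul_pow, ← mul_assoc, ← pow_succ', inv_pow,
    inv_mul_eq_div, div_div, mul_comm (J w ^ _)]

variable {M : Type} [Field M] [NumberField M] [Algebra K M] {n : ℕ} {b d : Basis (Fin n) K M}
  {T : Fin n → M} {w : Fin n → K}

theorem ms_eq (hw : ∀ j, w j ≠ 0 ∧ ∀ x, trace K M (T j * x) = w j * d.repr x j)
    (hd : dt b T * b.det d = ∏ j, w j) {ρ ρ' : Fin n → K → ℂ} {c : Fin n → ℂ}
    (h : ∀ j z, ρ j (w j * z) = (J (w j))⁻¹ * (c j * ρ' j z)) (ψ : K → ℂ) (φ : M → ℂ) (a : ℕ)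
    (y x : M) : ms ι J ψ b T ρ φ a y x = (∏ j, c j) * (φ x * EE ι J ψ a y x *
      ((J (b.det d))⁻¹ / 3 ^ (a * n) * ∏ i, ρ' i (d.repr x i))) := by
  have p : ∏ j, J (w j) ≠ 0 := prod_ne_zero_iff.2 fun j _ => (map_ne_zero J).2 (hw j).1
  have e := congrArg J hd
  rw [map_mul, map_prod] at e
  have q : J (b.det d) ≠ 0 := right_ne_zero_of_mul (e ▸ p)
  simp only [ms, (hw _).2, h, prod_mul_distrib, prod_inv_distrib]
  rw [eq_div_of_mul_eq q e]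
  field_simp

theorem ms_zero (h : dt b T = 0) (ψ : K → ℂ) (ρ : Fin n → K → ℂ) (φ : M → ℂ) (a : ℕ) (y : M) :
    Reg (ms ι J ψ b T ρ φ a y) 0 := Reg.zero.congr (fun x => by simp [ms, h]) rfl

theorem dt_zero (hE : EMB) (ι : ℂ →+* ℂ_[3]) (J : K →+* ℂ) (b : Basis (Fin n) K M)
    (h : ¬ LinearIndependent K T) : dt b T = 0 := by
  obtain ⟨⟨σ, h1, -⟩, h2⟩ := hE K ι J M n b
  exact not_not.1 fun k => h (((h2 σ h1).2.2.2.1 T).1 k)

end Pm

open Pm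

/-- **PRN** -/
theorem prn (hE : EMB) (hT : TST) (hU : UNF) : PRN := by
  intro K _ _ ι J Ω π τ ψ ω h1 M _ _ _ n b hb c l hc T φ B hf ha hF hB a y hy
  have B0 : 0 ≤ B := (norm_nonneg _).trans (hB 0)
  by_cases hl : LinearIndependent K T
  swap
  · exact ⟨0, ms_zero (dt_zero hE ι J b hl) _ _ _ _ _, by simpa using B0⟩
  obtain ⟨d, w, hA, hw, hd, -⟩ := hT K ι J π M n b c l hc T φ hf ha hl
  obtain ⟨A, I, _, co, z, s, β, -, h2, h3⟩ := hU K ι J π τ ψ h1.toAr M n b d hb l φ hA a y hy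
  have w1 : ∀ i, ‖ι (J (w i))‖ ≤ 1 := fun i => by
    have := hF i (d i) (hA.vi i)
    rw [mul_comm, (hw i).2] at this
    simpa using this
  obtain ⟨r, h4, h5⟩ := h3 (fun i => rh J ψ ω (w i)) fun p i j => (h1.pl l _ _ _ hA.odd (w1 i)).1
  refine ⟨r, h4.congr (fun x => ?_) rfl, h5 ▸ nsum B0 fun p => ?_⟩
  · rw [ms_eq hw hd (c := fun _ => 1) fun j z => by rw [rh_mul ψ ω (hw j).1, one_mul],
      prod_const_one, one_mul]
  · obtain ⟨x, -, k1, k2⟩ := h2 p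
    rw [mul_comm]
    exact nmul (nprod (fun i => (h1.pl l _ _ _ hA.odd (w1 i)).2 (k2 i).2.1 _ _) _)
      (k1.trans (hB x))

/-- **PRM** -/
theorem prm (hE : EMB) (hT : TST) (hU : UNF) : PRM := by
  intro K _ _ ι J Ω π τ ψ ω h1 M _ _ _ n b hb c l hc T φ B hf ha hG hB
  have B0 : 0 ≤ B := (norm_nonneg _).trans (hB 0)
  by_cases hl : LinearIndependent K T
  swap
  · have z := fun ρ a y => ms_zero (ι := ι) (J := J) (dt_zero hE ι J b hl) ψ ρ φ a y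
    refine ⟨fun a y _ => by simpa [(z _ a y).rg_eq] using B0,
      fun e => ⟨0, fun a y _ => ⟨⟨0, z _ a y⟩, fun u _ => by simp [(z _ a y).rg_eq]⟩⟩⟩
  obtain ⟨d, w, hA, hw, hd, hg⟩ := hT K ι J π M n b c l hc T φ hf ha hl
  have key : ∀ a y, Fd ι J 0 y → ∃ R : (Fin n → ℕ) → ℂ, (∀ e,
      Reg (ms ι J ψ b T (fun j => pw J ω (e j)) φ a y) ((∏ j, (J (w j))⁻¹ ^ e j) * R e)) ∧
      ‖ι (R 0)‖ ≤ B ∧ ∀ e, ‖ι (R e) - (∏ j, ι (J (trace K M (d j * y))) ^ e j) * ι (R 0)‖ ≤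
        B * (1 / 3) ^ a := fun a y hy => by
    obtain ⟨A, I, _, co, z, s, β, hA', h2, h3⟩ := hU K ι J π τ ψ h1.toAr M n b d hb l φ hA a y hy
    have o : ∀ p i (j : ℕ), ¬ Ow π (l * (z p i + j * τ A)) := fun p i j => by
      obtain ⟨x, k0, -, k2⟩ := h2 p
      exact ow_sh hc.1.ne_zero (h1.tw A) ((k2 i).1 ▸ hg hG x i k0)
    have g := fun p i e => (h1.gd l (s p i) (z p i) e hA.odd (by simpa using o p i 0)).2 A (β p i)
    choose R h4 h5 using fun e : Fin n → ℕ => h3 (fun i => pw J ω (e i))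
      fun p i j => (h1.gd l _ _ _ hA.odd (o p i j)).1
    refine ⟨R, fun e => ((h4 e).smul _).congr (fun x => ?_) rfl, h5 0 ▸ nsum B0 fun p => ?_,
      fun e => ?_⟩
    · exact ms_eq hw hd (fun j z => pw_mul ω _ _ z) _ _ _ _ _
    · obtain ⟨x, -, k1, -⟩ := h2 p
      rw [mul_comm]
      exact nmul (nprod (fun i => (g p i _).1) _) (k1.trans (hB x))
    rw [h5, h5, mul_sum, ← sum_sub_distrib]
    refine nsum (by positivity) fun p => ?_
    obtain ⟨x, -, k1, k2⟩ := h2 p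
    have y1 : ∀ i, ‖ι (J (trace K M (d i * y)))‖ ≤ 1 := fun i => by simpa using hy _ (hA.vi i)
    rw [mul_left_comm, ← mul_sub, ← prod_mul_distrib, norm_mul]
    refine mul_le_mul (k1.trans (hB x)) (ndif (by positivity) (fun i => (g p i _).1)
      (fun i => nmul (npow (y1 i) _) (g p i _).1) (fun i => ?_) _) (norm_nonneg _) B0
    refine nmom (F := fun e => fo ι τ ψ (pw J ω e) (s p i / l) (z p i) A (β p i)) (β := β p i)
      (by positivity) (fun e => (g p i e).1) (y1 i) (fun e => (g p i e).2.trans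
        (pow_le_pow_of_le_one (by norm_num) (by norm_num) hA')) ?_ _
    simpa using (k2 i).2.2
  refine ⟨fun a y hy => ?_, fun e => ⟨‖ι (∏ j, (J (w j))⁻¹ ^ e j)‖ * B, fun a y hy => ?_⟩⟩
  · obtain ⟨R, k1, k2, -⟩ := key a y hy
    simpa using (k1 0).rg_eq ▸ (by simpa using k2 : ‖ι ((∏ j, (J (w j))⁻¹ ^ (0 : Fin n → ℕ) j) *
      R 0)‖ ≤ B)
  obtain ⟨R, k1, -, k3⟩ := key a y hy
  refine ⟨⟨_, k1 e⟩, fun u hu => ?_⟩
  have t : ∀ j, trace K M (d j * y) = w j * u j := fun j => by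
    rw [hu, mul_comm]
    simp only [sum_mul, smul_mul_assoc, map_sum, map_smul, (hw _).2, Basis.repr_self, smul_eq_mul]
    rw [sum_eq_single j (fun i _ k => by simp [k]) (by simp)]
    simp [mul_comm]
  have r0 : rg (ms ι J ψ b T (fun _ => pw J ω 0) φ a y) = R 0 := by simpa using (k1 0).rg_eq
  have q : (∏ j, ι (J (u j)) ^ e j) = ι (∏ j, (J (w j))⁻¹ ^ e j) *
      ∏ j, ι (J (trace K M (d j * y))) ^ e j := by
    rw [map_prod, ← prod_mul_distrib]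
    refine prod_congr rfl fun j _ => ?_
    rw [t, map_pow, ← mul_pow, ← map_mul, map_mul J,
      inv_mul_cancel_left₀ ((map_ne_zero J).2 (hw j).1)]
  rw [(k1 e).rg_eq, r0, q, map_mul, mul_assoc, ← mul_sub, norm_mul, mul_assoc]
  exact mul_le_mul_of_nonneg_left (k3 e) (norm_nonneg _)

end Vale.Agent.P014Y.C.Ms
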