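import Vale.Agent.P014Y.C.Ms.Unf
import Vale.Agent.P014Y.C.Ms.Cnt
import Vale.Agent.P014Y.C.Ms.Prm
import Vale.Agent.P014Y.C.Ms.Emb
import Vale.Agent.P014Y.C.Ms.Cke
import Vale.Agent.P014Y.C.Ms.Dis
import Vale.Agent.P014Y.C.Ms.Lim
import Vale.Agent.P014Y.C.Ms.Msr
import Vale.Agent.P014Y.C.Ms.Lms
import Vale.Agent.P014Y.C.Ms.Tst
import Vale.Agent.P014Y.C.Ms.Bs1
import Vale.Agent.P014Y.C.Ms.Bs2
import Vale.Agent.P014Y.C.In.Ord
import Vale.Agent.P014Y.C.In.Int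

/-!
# P014 Y, C, block MEAS: the exports without hypotheses
-/

namespace Vale.Agent.P014Y.C.Ms

theorem bs1 : BS1 := bs1' In.ord In.int1

theorem x_bas : BAS := fun K _ _ ι J Ω h s => by
  obtain ⟨π, τ, ψ, ω, q, k⟩ := bs1 K ι J Ω h s
  exact ⟨π, τ, ψ, ω, bs2 K ι J Ω π τ ψ ω q k⟩

theorem x_unf : UNF := unf rep cnt

theorem x_prn : PRN := prn emb tst x_unf

theorem x_prm : PRM := prm emb tst x_unf

theorem x_rsm : RSM := rsm emb cke dis x_prm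

theorem x_msr : MSR := msr emb dis x_prm x_rsm

theorem x_lms : LMS := lms emb dif dis x_prn x_prm x_rsm (lim emb dif)

end Vale.Agent.P014Y.C.Ms
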