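import Vale.Agent.P014Y.C.Ms.St
import Vale.Agent.P014Y.C.Al.Gb0

/-!
# P014 Y, C, block MEAS, row BS2: the lattice `O + ℤ / g` and its characters
-/

set_option linter.unusedSectionVars false

open NumberField Module Finset
open scoped Classical

noncomputable section

namespace Vale.Agent.P014Y.C.Ms.Bt

open In P004C.An Vale.Agent.P027H Al.Gx

theorem nsum {α : Type} {T : Finset α} {F : α → ℂ_[3]} {C : ℝ} (hC : 0 ≤ C)
    (h : ∀ b ∈ T, ‖F b‖ ≤ C) : ‖∑ b ∈ T, F b‖ ≤ C :=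
  IsUltrametricDist.norm_sum_le_of_forall_le_of_nonneg hC h

theorem nsub {a b : ℂ_[3]} {C : ℝ} (h : ‖a‖ ≤ C) (k : ‖b‖ ≤ C) : ‖a - b‖ ≤ C := by
  rw [sub_eq_add_neg]
  exact (IsUltrametricDist.norm_add_le_max _ _).trans (max_le h (by rwa [norm_neg]))

theorem nodd {g : ℕ} (hg : Nat.Coprime g 3) : ‖(g : ℂ_[3])‖ = 1 := by
  have := (PadicComplex.norm_extends' 3 (g : ℚ_[3])).trans
    ((Padic.norm_natCast_eq_one_iff (p := 3)).2 hg.symm)
  rwa [map_natCast, PadicComplex.coe_natCast] at this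

theorem cpos {g : ℕ} (h : Nat.Coprime g 3) : 0 < g :=
  Nat.pos_of_ne_zero fun e => by simp [e] at h

theorem nbig {j A : ℕ} (h0 : j ≠ 0) (h : j < 3 ^ A) : 1 < ‖(j : ℂ_[3])‖ * 3 ^ A := by
  obtain ⟨k, m, hm0, rfl⟩ := Nat.exists_eq_pow_mul_and_not_dvd h0 3 (by norm_num)
  have hm : Nat.Coprime m 3 := ((Nat.Prime.coprime_iff_not_dvd Nat.prime_three).2 hm0).symm
  have hk : k < A := (Nat.pow_lt_pow_iff_right (by norm_num)).mp
    ((Nat.le_mul_of_pos_right _ (cpos hm)).trans_lt h)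
  push_cast
  rw [norm_mul, nodd hm, norm_pow, nm_two, mul_one, one_div, inv_pow, inv_mul_eq_div,
    one_lt_div (by positivity)]
  exact pow_lt_pow_right₀ (by norm_num) hk

theorem nroot {g : ℕ} (hg : 0 < g) {w : ℂ_[3]} (hw : w ^ g = 1) : ‖w‖ = 1 := by
  have := congrArg norm hw
  rw [norm_pow, norm_one] at this
  exact (pow_eq_one_iff_of_nonneg (norm_nonneg _) hg.ne').mp this

theorem nroot1 {g : ℕ} (hg : Nat.Coprime g 3) {w : ℂ_[3]} (hw : w ^ g = 1) (h1 : w ≠ 1) : ‖w - 1‖ = 1 := by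
  have hn := nroot (cpos hg) hw
  refine le_antisymm (nsub hn.le norm_one.le) ?_
  have e : ∑ i ∈ range g, w ^ i = 0 := by
    have := mul_geom_sum w g
    rw [hw, sub_self] at this
    exact (mul_eq_zero.mp this).resolve_left (sub_ne_zero.mpr h1)
  have e2 : ∑ i ∈ range g, (w ^ i - 1) = -(g : ℂ_[3]) := by
    rw [sum_sub_distrib, e]; simp
  rw [← nodd hg, ← norm_neg (g : ℂ_[3]), ← e2]
  refine nsum (norm_nonneg _) fun i _ => ?_
  rw [← mul_geom_sum, norm_mul]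
  exact mul_le_of_le_one_right (norm_nonneg _)
    (nsum zero_le_one fun j _ => by rw [norm_pow, hn, one_pow])

theorem ft_congr (w : ℂ_[3]) (a : ℕ) {G G' : ℕ → ℂ_[3]} (h : ∀ j < 3 ^ a, G j = G' j) (β : ℤ) :
    ft w a G β = ft w a G' β := by
  unfold ft
  rw [sum_congr rfl fun j hj => by rw [h j (mem_range.mp hj)]]

theorem ft_sum (w : ℂ_[3]) (a : ℕ) {α : Type} (T : Finset α) (c : α → ℂ_[3])
    (G : α → ℕ → ℂ_[3]) (β : ℤ) :
    ft w a (fun j => ∑ b ∈ T, c b * G b j) β = ∑ b ∈ T, c b * ft w a (G b) β := by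
  simp only [ft, mul_sum]
  rw [sum_comm]
  exact sum_congr rfl fun b _ => sum_congr rfl fun j _ => by ring

theorem ft_add (w : ℂ_[3]) (a : ℕ) (G G' : ℕ → ℂ_[3]) (β : ℤ) :
    ft w a (fun j => G j + G' j) β = ft w a G β + ft w a G' β := by
  simp only [ft, mul_add, sum_add_distrib]

theorem ft_sub (w : ℂ_[3]) (a : ℕ) (G G' : ℕ → ℂ_[3]) (β : ℤ) :
    ft w a (fun j => G j - G' j) β = ft w a G β - ft w a G' β := by
  simp only [ft, mul_sub, sum_sub_distrib]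

theorem ft_pow {w : ℂ_[3]} (hw : w ≠ 0) (a i : ℕ) (G : ℕ → ℂ_[3]) (β : ℤ) :
    ft w a (fun j => (w ^ j) ^ i * G j) β = ft w a G (β - i) := by
  unfold ft
  congr 1
  refine sum_congr rfl fun j _ => ?_
  rw [← mul_assoc, ← pow_mul, ← zpow_natCast, ← zpow_add₀ hw]
  congr 2
  push_cast
  ring

theorem ft_del (w : ℂ_[3]) (a : ℕ) (c : ℂ_[3]) (β : ℤ) :
    ft w a (fun j => if j = 0 then c else 0) β = ((3 : ℂ_[3]) ^ a)⁻¹ * c := by
  unfold ft
  rw [sum_eq_single 0 (fun j _ h => by simp [h]) (fun h => absurd (mem_range.mpr (by positivity)) h)]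
  simp

variable {K : Type} [Field K] [NumberField K] (J : K →+* ℂ) (g : ℕ)

theorem mem_Lk {z : ℂ} : z ∈ Lk J ↔ ∃ o : 𝓞 K, J o = z := Iff.rfl

theorem j_Lk {y : K} : J y ∈ Lk J ↔ IsIntegral ℤ y :=
  ⟨fun ⟨o, e⟩ => J.injective e ▸ o.isIntegral_coe, fun h => ⟨⟨y, h⟩, rfl⟩⟩

/-- the lattice `O + ℤ / g` -/
def LL : Submodule ℤ ℂ where
  carrier := {m | ∃ i : ℤ, m - i / g ∈ Lk J}
  add_mem' := fun ⟨i, h⟩ ⟨k, h'⟩ => ⟨i + k, mem_of_eq (add_mem h h') (by push_cast; ring)⟩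
  zero_mem' := ⟨0, by simp⟩
  smul_mem' := fun c _ ⟨i, h⟩ => ⟨c * i, mem_of_eq (int_mul_mem c h) (by simp; ring)⟩

/-- the character attached to a root of unity -/
def xi (w m : ℂ) : ℂ := if h : m ∈ LL J g then w ^ h.choose else 0

variable {J g}

theorem int_Lk (k : ℤ) : (k : ℂ) ∈ Lk J := ⟨k, by simp⟩

theorem dvd_iff (hg : 0 < g) {i : ℤ} : (i / g : ℂ) ∈ Lk J ↔ (g : ℤ) ∣ i := by
  have g0 : (g : ℂ) ≠ 0 := by exact_mod_cast hg.ne'
  refine ⟨fun h => ?_, fun ⟨k, e⟩ => mem_of_eq (int_Lk k) (by rw [e]; push_cast; field_simp)⟩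
  have e : (i / g : ℂ) = J (algebraMap ℚ K (i / g)) := by simp
  rw [e, j_Lk, isIntegral_algebraMap_iff (algebraMap ℚ K).injective] at h
  obtain ⟨k, hk⟩ := IsIntegrallyClosed.isIntegral_iff.mp h
  have g1 : (g : ℚ) ≠ 0 := by exact_mod_cast hg.ne'
  rw [eq_div_iff g1, eq_intCast] at hk
  exact ⟨k, by exact_mod_cast (hk.symm.trans (mul_comm _ _))⟩

theorem xi_eq (hg : 0 < g) {w m : ℂ} (hw : w ^ g = 1) {i : ℤ} (h : m - i / g ∈ Lk J) :
    xi J g w m = w ^ i := by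
  have hm : m ∈ LL J g := ⟨i, h⟩
  have w0 : w ≠ 0 := by
    rintro rfl
    simp [hg.ne'] at hw
  obtain ⟨k, hk⟩ := (dvd_iff (J := J) hg (i := hm.choose - i)).mp
    (mem_of_eq (sub_mem h hm.choose_spec) (by push_cast; ring))
  rw [xi, dif_pos hm, eq_add_of_sub_eq hk, zpow_add₀ w0, zpow_mul, zpow_natCast, hw, one_zpow,
    one_mul]

theorem xi_add (hg : 0 < g) {w : ℂ} (hw : w ^ g = 1) : ∀ m ∈ LL J g, ∀ m' ∈ LL J g,
    xi J g w (m + m') = xi J g w m * xi J g w m' := by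
  rintro m ⟨i, h⟩ m' ⟨k, h'⟩
  have w0 : w ≠ 0 := by
    rintro rfl
    simp [hg.ne'] at hw
  rw [xi_eq hg hw h, xi_eq hg hw h', ← zpow_add₀ w0]
  exact xi_eq hg hw (mem_of_eq (add_mem h h') (by push_cast; ring))

theorem xi_one (hg : 0 < g) {w : ℂ} (hw : w ^ g = 1) : ∀ l ∈ Lk J, xi J g w l = 1 := fun l h => by
  rw [xi_eq hg hw (i := 0) (by simpa using h), zpow_zero]

theorem xi_nat (hg : 0 < g) {w : ℂ} (hw : w ^ g = 1) (s : ℕ) :
    xi J g w (s * (1 / g)) = w ^ s := by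
  rw [xi_eq hg hw (i := s) (mem_of_eq (zero_mem _) (by push_cast; ring)), zpow_natCast]

theorem xi_nm (ι : ℂ →+* ℂ_[3]) (hg : 0 < g) {w : ℂ} (hw : w ^ g = 1) :
    ∀ m ∈ LL J g, ‖ι (xi J g w m)‖ = 1 := by
  rintro m ⟨i, h⟩
  rw [xi_eq hg hw h, map_zpow₀, norm_zpow, nroot hg (by rw [← map_pow, hw, map_one]), one_zpow]

theorem le_LL : Lk J ≤ LL J g := fun m h => ⟨0, by simpa using h⟩

theorem mul_LL (hg : 0 < g) : ∀ z ∈ LL J g, (g : ℂ) * z ∈ Lk J := by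
  rintro m ⟨i, h⟩
  have g0 : (g : ℂ) ≠ 0 := by exact_mod_cast hg.ne'
  exact mem_of_eq (add_mem (nat_mul_mem g h) (int_Lk i)) (by field_simp; ring)

theorem ex_J {m : ℂ} (h : m ∈ LL J g) : ∃ y, J y = m := by
  obtain ⟨i, o, e⟩ := h
  refine ⟨i / g + o, ?_⟩
  rw [map_add, show J o = m - i / g from e]
  simp

theorem nm_LL (ι : ℂ →+* ℂ_[3]) (hg : Nat.Coprime g 3) {m : ℂ} (h : m ∈ LL J g) : ‖ι m‖ ≤ 1 := by
  obtain ⟨o, e⟩ := (mem_Lk J).mp (mul_LL (cpos hg) m h)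
  have := nm_le (ι := ι) (J := J) o
  rwa [e, map_mul, map_natCast, norm_mul, nodd hg, one_mul] at this

variable (J g) in
/-- the lattice inside `K` -/
def jl : LL J g →+ K := AddMonoidHom.mk' (fun m => (ex_J m.2).choose) fun a b =>
  J.injective (by rw [map_add, (ex_J a.2).choose_spec, (ex_J b.2).choose_spec,
    (ex_J (a + b).2).choose_spec]; rfl)

theorem J_jl (m : LL J g) : J (jl J g m) = m := (ex_J m.2).choose_spec

theorem reg_K {F : ℂ → ℂ} {r : ℂ} (z : K) (h0 : ∀ m ∉ LL J g, F m = 0) (ρ : K → ℂ)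
    (h : Reg (fun m : LL J g => F m * ρ (z + jl J g m)) r) :
    Reg (fun x => F (J (x - z)) * ρ x) r := by
  refine Reg.ext (jl J g) (fun a b e => Subtype.ext (by rw [← J_jl, ← J_jl, e])) z
    (fun x hx => ?_) (h.congr (fun m => by rw [add_sub_cancel_left, J_jl]) rfl)
  have : J (x - z) ∈ LL J g := by_contra fun k => hx (by rw [h0 _ k, zero_mul])
  exact ⟨⟨_, this⟩, J.injective (by rw [map_add, J_jl]; simp)⟩

theorem orth {ζ : ℂ} (hζ : IsPrimitiveRoot ζ g) (k : ℤ) :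
    ∑ b ∈ range g, (ζ ^ b) ^ k = if (g : ℤ) ∣ k then (g : ℂ) else 0 := by
  have e : ∀ b : ℕ, (ζ ^ b) ^ k = (ζ ^ k) ^ b := fun b => by
    rw [← zpow_natCast, ← zpow_natCast, ← zpow_mul, ← zpow_mul, mul_comm]
  simp only [e]
  split_ifs with h
  · simp [(hζ.zpow_eq_one_iff_dvd k).mpr h]
  · have := mul_geom_sum (ζ ^ k) g
    rw [← e, hζ.pow_eq_one, one_zpow, sub_self] at this
    exact (mul_eq_zero.mp this).resolve_left
      (sub_ne_zero.mpr (mt (hζ.zpow_eq_one_iff_dvd k).mp h))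

theorem ind_eq (hg : 0 < g) {ζ : ℂ} (hζ : IsPrimitiveRoot ζ g) (s : ℕ) (y : K) :
    ((if IsIntegral ℤ (y - s / g) then 1 else 0) - if IsIntegral ℤ y then 1 else 0 : ℂ) =
      ∑ b ∈ (range g).erase 0, (g : ℂ)⁻¹ * ((ζ ^ b) ^ (-s : ℤ) - 1) * xi J g (ζ ^ b) (J y) := by
  have g0 : (g : ℂ) ≠ 0 := by exact_mod_cast hg.ne'
  rw [sum_erase _ (by simp), ← j_Lk J, ← j_Lk J]
  by_cases h : J y ∈ LL J g
  · obtain ⟨i, hi⟩ := h
    have e : ∀ b : ℕ, (g : ℂ)⁻¹ * ((ζ ^ b) ^ (-s : ℤ) - 1) * xi J g (ζ ^ b) (J y) =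
        (g : ℂ)⁻¹ * ((ζ ^ b) ^ (i - s) - (ζ ^ b) ^ i) := fun b => by
      rw [xi_eq hg (by rw [← pow_mul, mul_comm, pow_mul, hζ.pow_eq_one, one_pow]) hi,
        sub_eq_neg_add i, zpow_add₀ (pow_ne_zero _ (hζ.ne_zero hg.ne'))]
      ring
    have e1 : J (y - s / g) ∈ Lk J ↔ (g : ℤ) ∣ i - s := by
      rw [← dvd_iff (J := J) hg, ← (Lk J).add_mem_iff_right hi (y := ((i - s : ℤ) : ℂ) / g)]
      congr! 1
      simp
      ring
    have e2 : J y ∈ Lk J ↔ (g : ℤ) ∣ i := by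
      rw [← dvd_iff (J := J) hg, ← (Lk J).add_mem_iff_right hi (y := (i : ℂ) / g)]
      congr! 1
      ring
    simp only [e, ← mul_sum, sum_sub_distrib, orth hζ, e1, e2]
    split_ifs <;> simp [g0]
  · rw [if_neg (fun k => h ⟨s, by simpa using k⟩), if_neg fun k => h (le_LL k)]
    simp [xi, h]

end Vale.Agent.P014Y.C.Ms.Bt
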